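import Mathlib

/-! Definitions for local smooth isometric realization of surface metrics. -/

namespace Vale.Agent.H21.P229

open scoped ContDiff Topology

/-- The coordinate plane. -/
abbrev Plane := EuclideanSpace ℝ (Fin 2)

/-- Euclidean three-space with its standard inner product. -/
abbrev Space := EuclideanSpace ℝ (Fin 3)

/-- `g` is a smooth positive definite Riemannian metric on the open set `Ω`. -/
def IsSmoothMetricOn (g : Plane → Matrix (Fin 2) (Fin 2) ℝ) (Ω : Set Plane) : Prop :=
  IsOpen Ω ∧ (∀ i j, ContDiffOn ℝ ∞ (fun x => g x i j) Ω) ∧ ∀ x ∈ Ω, (g x).PosDef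

/-- The `i`-th partial derivative of a map defined on the plane. -/
noncomputable def pd {E : Type} [NormedAddCommGroup E] [NormedSpace ℝ E]
    (i : Fin 2) (F : Plane → E) (x : Plane) : E :=
  fderiv ℝ F x (EuclideanSpace.single i 1)

/-- `F` is a smooth isometric immersion of `(U, g)` into Euclidean three-space. -/
def IsIsometricImmersionOn (g : Plane → Matrix (Fin 2) (Fin 2) ℝ) (U : Set Plane)
    (F : Plane → Space) : Prop :=
  ContDiffOn ℝ ∞ F U ∧ ∀ x ∈ U, ∀ i j, inner ℝ (pd i F x) (pd j F x) = g x i j

/-- `g` is locally smoothly realizable at `p`. -/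
def LocallyRealizableAt (g : Plane → Matrix (Fin 2) (Fin 2) ℝ) (p : Plane) : Prop :=
  ∃ U : Set Plane, IsOpen U ∧ p ∈ U ∧ ∃ F : Plane → Space, IsIsometricImmersionOn g U F

end Vale.Agent.H21.P229
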