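import Mathlib

/-! Helper lemmas: local extension of smooth functions on the line and smooth primitives. -/

namespace Vale.Agent.H21

open scoped ContDiff Topology
open MeasureTheory

/-- A function that is smooth on an open set of the line agrees near each point of the set
with a globally smooth function. -/
theorem exists_contDiff_eventuallyEq {f : ℝ → ℝ} {I : Set ℝ} (hI : IsOpen I)
    (hf : ContDiffOn ℝ ∞ f I) {s₀ : ℝ} (hs : s₀ ∈ I) :
    ∃ F : ℝ → ℝ, ContDiff ℝ ∞ F ∧ ∀ᶠ s in 𝓝 s₀, F s = f s := by
  obtain ⟨ε, hε, hball⟩ := Metric.isOpen_iff.1 hI s₀ hs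
  let χ : ContDiffBump s₀ := ⟨ε / 4, ε / 2, by positivity, by linarith⟩
  refine ⟨fun s => χ s * f s, ?_, ?_⟩
  · rw [contDiff_iff_contDiffAt]
    intro s
    by_cases h : s ∈ I
    · exact (χ.contDiff.contDiffAt).mul (hf.contDiffAt (hI.mem_nhds h))
    · have hsup : s ∉ tsupport χ := by
        rw [χ.tsupport_eq]
        intro hc
        apply h
        apply hball
        exact Metric.closedBall_subset_ball (by change ε / 2 < ε; linarith) hc
      have : (fun s => χ s * f s) =ᶠ[𝓝 s] fun _ => 0 := by
        have h1 := notMem_tsupport_iff_eventuallyEq.1 hsup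
        filter_upwards [h1] with x hx
        simp [hx]
      exact contDiffAt_const.congr_of_eventuallyEq this
  · have : ∀ᶠ s in 𝓝 s₀, χ s = 1 := χ.eventuallyEq_one
    filter_upwards [this] with s hs
    simp [hs]

/-- A globally smooth function has a globally smooth primitive. -/
theorem exists_primitive {f : ℝ → ℝ} (hf : ContDiff ℝ ∞ f) :
    ∃ F : ℝ → ℝ, ContDiff ℝ ∞ F ∧ ∀ s, HasDerivAt F (f s) s := by
  have hd : ∀ s, HasDerivAt (fun s => ∫ x in (0:ℝ)..s, f x) (f s) s := fun s =>
    intervalIntegral.integral_hasDerivAt_right (hf.continuous.intervalIntegrable _ _)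
      (hf.continuous.stronglyMeasurableAtFilter _ _) hf.continuous.continuousAt
  refine ⟨fun s => ∫ x in (0:ℝ)..s, f x, ?_, hd⟩
  rw [contDiff_infty_iff_deriv]
  refine ⟨fun s => (hd s).differentiableAt, ?_⟩
  have : deriv (fun s => ∫ x in (0:ℝ)..s, f x) = f := by
    ext s; exact (hd s).deriv
  rw [this]; exact hf

end Vale.Agent.H21
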