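import Mathlib
import Vale.Agent.H21.SmoothTools
import Vale.Agent.H21.P229Defs

/-! Realization of moulding metrics and of metrics invariant under a translation. -/

namespace Vale.Agent.H21.P229

open scoped ContDiff Topology
open Vale.Agent.H21

theorem moulding (Ω : Set Plane) (g : Plane → Matrix (Fin 2) (Fin 2) ℝ)
    (hg : IsSmoothMetricOn g Ω) (p : Plane) (hp : p ∈ Ω)
    (s t : Plane → ℝ) (hs : ContDiffOn ℝ ∞ s Ω) (ht : ContDiffOn ℝ ∞ t Ω)
    (I J : Set ℝ) (hI : IsOpen I) (hJ : IsOpen J) (hpI : s p ∈ I) (hpJ : t p ∈ J)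
    (a ϖ α β : ℝ → ℝ) (ha : ContDiffOn ℝ ∞ a I) (hϖ : ContDiffOn ℝ ∞ ϖ I)
    (hα : ContDiffOn ℝ ∞ α J) (hβ : ContDiffOn ℝ ∞ β J)
    (hform : ∀ᶠ x in 𝓝 p, ∀ i j, g x i j =
      a (s x) ^ 2 * (pd i s x * pd j s x) +
        (α (t x) + β (t x) * ϖ (s x)) ^ 2 * (pd i t x * pd j t x)) :
    LocallyRealizableAt g p := by
  obtain ⟨hΩ, -, hpos⟩ := hg
  -- `a` does not vanish at `s p`
  have ha0 : a (s p) ≠ 0 := by
    intro h0
    have hf := hform.self_of_nhds
    have hdet := (hpos p hp).det_pos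
    rw [Matrix.det_fin_two] at hdet
    rw [hf 0 0, hf 0 1, hf 1 0, hf 1 1, h0] at hdet
    nlinarith [hdet]
  have hsp : ∀ᶠ x in 𝓝 p, HasFDerivAt s (fderiv ℝ s x) x := by
    filter_upwards [hΩ.mem_nhds hp] with x hx
    exact ((hs.contDiffAt (hΩ.mem_nhds hx)).differentiableAt (by simp)).hasFDerivAt
  have htp : ∀ᶠ x in 𝓝 p, HasFDerivAt t (fderiv ℝ t x) x := by
    filter_upwards [hΩ.mem_nhds hp] with x hx
    exact ((ht.contDiffAt (hΩ.mem_nhds hx)).differentiableAt (by simp)).hasFDerivAt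
  have hsc : ContinuousAt s p := (hs.contDiffAt (hΩ.mem_nhds hp)).continuousAt
  have htc : ContinuousAt t p := (ht.contDiffAt (hΩ.mem_nhds hp)).continuousAt
  -- global smooth extensions
  obtain ⟨a', ha', hae⟩ := exists_contDiff_eventuallyEq hI ha hpI
  obtain ⟨w, hw, hwe⟩ := exists_contDiff_eventuallyEq hI hϖ hpI
  obtain ⟨α', hα', hαe⟩ := exists_contDiff_eventuallyEq hJ hα hpJ
  obtain ⟨β', hβ', hβe⟩ := exists_contDiff_eventuallyEq hJ hβ hpJ
  have hdw : ContDiff ℝ ∞ (deriv w) := (contDiff_infty_iff_deriv.1 hw).2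
  have hwd : ∀ y, HasDerivAt w (deriv w y) y := fun y =>
    ((contDiff_infty_iff_deriv.1 hw).1 y).hasDerivAt
  -- the small constant
  have ha's : a' (s p) = a (s p) := hae.self_of_nhds
  obtain ⟨κ, hκ, hκr⟩ : ∃ κ : ℝ, 0 < κ ∧ 0 < a' (s p) ^ 2 - κ ^ 2 * deriv w (s p) ^ 2 := by
    have h1 : 0 < a' (s p) ^ 2 := by rw [ha's]; positivity
    set D := deriv w (s p) ^ 2 with hD
    have hD0 : 0 ≤ D := by positivity
    refine ⟨Real.sqrt (a' (s p) ^ 2 / (2 * (D + 1))), by positivity, ?_⟩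
    rw [Real.sq_sqrt (by positivity)]
    have : a' (s p) ^ 2 / (2 * (D + 1)) * D ≤ a' (s p) ^ 2 / 2 := by
      rw [div_mul_eq_mul_div, div_le_div_iff₀ (by positivity) (by norm_num)]
      nlinarith
    linarith
  let r : ℝ → ℝ := fun y => a' y ^ 2 - κ ^ 2 * deriv w y ^ 2
  have hr : ContDiff ℝ ∞ r := (ha'.pow 2).sub (contDiff_const.mul (hdw.pow 2))
  have hrI : IsOpen {y | 0 < r y} := isOpen_lt continuous_const hr.continuous
  have hsqrt : ContDiffOn ℝ ∞ (fun y => Real.sqrt (r y)) {y | 0 < r y} := fun y hy =>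
    (hr.contDiffAt.sqrt (ne_of_gt hy)).contDiffWithinAt
  obtain ⟨q, hq, hqe⟩ := exists_contDiff_eventuallyEq hrI hsqrt hκr
  obtain ⟨Q, hQ, hQd⟩ := exists_primitive hq
  obtain ⟨θ, hθ, hθd⟩ := exists_primitive (f := fun y => β' y / κ) (hβ'.div_const κ)
  obtain ⟨A, hA, hAd⟩ := exists_primitive (f := fun y => -(α' y * Real.sin (θ y)))
    ((hα'.mul (Real.contDiff_sin.comp hθ)).neg)
  obtain ⟨B, hB, hBd⟩ := exists_primitive (f := fun y => α' y * Real.cos (θ y))
    (hα'.mul (Real.contDiff_cos.comp hθ))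
  -- the neighbourhood
  have hev : ∀ᶠ x in 𝓝 p, x ∈ Ω ∧ HasFDerivAt s (fderiv ℝ s x) x ∧
      HasFDerivAt t (fderiv ℝ t x) x ∧ a' (s x) = a (s x) ∧ w (s x) = ϖ (s x) ∧
      α' (t x) = α (t x) ∧ β' (t x) = β (t x) ∧ q (s x) = Real.sqrt (r (s x)) ∧
      0 < r (s x) ∧ ∀ i j, g x i j = a (s x) ^ 2 * (pd i s x * pd j s x) +
        (α (t x) + β (t x) * ϖ (s x)) ^ 2 * (pd i t x * pd j t x) := by
    filter_upwards [hΩ.mem_nhds hp, hsp, htp, hsc.eventually hae, hsc.eventually hwe,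
      htc.eventually hαe, htc.eventually hβe, hsc.eventually hqe,
      hsc.eventually (hrI.mem_nhds hκr), hform] with x h1 h2 h3 h4 h5 h6 h7 h8 h9 h10
    exact ⟨h1, h2, h3, h4, h5, h6, h7, h8, h9, h10⟩
  obtain ⟨U, hU, hUo, hpU⟩ := eventually_nhds_iff.1 hev
  let F : Plane → Space := fun x => WithLp.toLp 2
    ![A (t x) + κ * w (s x) * Real.cos (θ (t x)),
      B (t x) + κ * w (s x) * Real.sin (θ (t x)), Q (s x)]
  have hsU : ContDiffOn ℝ ∞ s U := hs.mono fun x hx => (hU x hx).1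
  have htU : ContDiffOn ℝ ∞ t U := ht.mono fun x hx => (hU x hx).1
  have hFc : ContDiffOn ℝ ∞ F U := by
    rw [contDiffOn_euclidean]
    intro i
    fin_cases i
    · exact (hA.comp_contDiffOn htU).add ((contDiffOn_const.mul (hw.comp_contDiffOn hsU)).mul
        (Real.contDiff_cos.comp_contDiffOn (hθ.comp_contDiffOn htU)))
    · exact (hB.comp_contDiffOn htU).add ((contDiffOn_const.mul (hw.comp_contDiffOn hsU)).mul
        (Real.contDiff_sin.comp_contDiffOn (hθ.comp_contDiffOn htU)))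
    · exact hQ.comp_contDiffOn hsU
  refine ⟨U, hUo, hpU, F, hFc, ?_⟩
  intro x hx i j
  obtain ⟨-, hsx, htx, hax, hwx, hαx, hβx, hqx, hrx, hgx⟩ := hU x hx
  have hFd : HasFDerivAt F (fderiv ℝ F x) x :=
    ((hFc.contDiffAt (hUo.mem_nhds hx)).differentiableAt (by simp)).hasFDerivAt
  have hcomp : ∀ (k : Fin 3) (v : Plane) (L : Plane →L[ℝ] ℝ),
      HasFDerivAt (fun y => F y k) L x → (fderiv ℝ F x v) k = L v := by
    intro k v L hL
    have h1 : HasFDerivAt (fun y => F y k) ((EuclideanSpace.proj k).comp (fderiv ℝ F x)) x :=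
      (EuclideanSpace.proj (𝕜 := ℝ) (ι := Fin 3) k).hasFDerivAt.comp x hFd
    rw [← h1.unique hL]
    rfl
  have hcos : HasDerivAt (fun y => Real.cos (θ y)) (-Real.sin (θ (t x)) * (β' (t x) / κ)) (t x) :=
    (Real.hasDerivAt_cos _).comp (t x) (hθd (t x))
  have hsin : HasDerivAt (fun y => Real.sin (θ y)) (Real.cos (θ (t x)) * (β' (t x) / κ)) (t x) :=
    (Real.hasDerivAt_sin _).comp (t x) (hθd (t x))
  have hwS : HasFDerivAt (fun y => κ * w (s y)) (κ • (deriv w (s x) • fderiv ℝ s x)) x :=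
    ((hwd (s x)).comp_hasFDerivAt x hsx).const_mul κ
  have h0 : HasFDerivAt (fun y => F y 0) _ x :=
    ((hAd (t x)).comp_hasFDerivAt x htx).add (hwS.mul (hcos.comp_hasFDerivAt x htx))
  have h1 : HasFDerivAt (fun y => F y 1) _ x :=
    ((hBd (t x)).comp_hasFDerivAt x htx).add (hwS.mul (hsin.comp_hasFDerivAt x htx))
  have h2 : HasFDerivAt (fun y => F y 2) _ x := (hQd (s x)).comp_hasFDerivAt x hsx
  have hc0 := fun v => hcomp 0 v _ h0
  have hc1 := fun v => hcomp 1 v _ h1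
  have hc2 := fun v => hcomp 2 v _ h2
  rw [hgx i j]
  unfold pd
  rw [PiLp.inner_apply, Fin.sum_univ_three]
  simp only [hc0, hc1, hc2]
  simp only [_root_.add_apply, _root_.smul_apply, smul_eq_mul,
    RCLike.inner_apply, conj_trivial]
  rw [hαx, hβx, hwx, hqx]
  have hsq : Real.sqrt (r (s x)) * Real.sqrt (r (s x)) = r (s x) := Real.mul_self_sqrt hrx.le
  have hr' : r (s x) = a (s x) ^ 2 - κ ^ 2 * deriv w (s x) ^ 2 := by
    simp only [r]; rw [hax]
  have htrig := Real.sin_sq_add_cos_sq (θ (t x))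
  set S := Real.sin (θ (t x))
  set C := Real.cos (θ (t x))
  set si := fderiv ℝ s x (EuclideanSpace.single i 1)
  set sj := fderiv ℝ s x (EuclideanSpace.single j 1)
  set ti := fderiv ℝ t x (EuclideanSpace.single i 1)
  set tj := fderiv ℝ t x (EuclideanSpace.single j 1)
  have key : Real.sqrt (r (s x)) * Real.sqrt (r (s x)) =
      a (s x) ^ 2 - κ ^ 2 * deriv w (s x) ^ 2 := by
    rw [hsq, hr']
  obtain ⟨b, hb⟩ : ∃ b, b = β (t x) / κ := ⟨_, rfl⟩
  have hβb : β (t x) = κ * b := by rw [hb]; field_simp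
  rw [← hb, hβb]
  linear_combination (si * sj) * key +
    (κ ^ 2 * deriv w (s x) ^ 2 * (si * sj) +
      (α (t x) + κ * b * ϖ (s x)) ^ 2 * (ti * tj)) * htrig


/-- Metrics whose coefficients depend on one coordinate only. -/
theorem killing (Ω : Set Plane) (g : Plane → Matrix (Fin 2) (Fin 2) ℝ)
    (hg : IsSmoothMetricOn g Ω) (hinv : ∀ x ∈ Ω, ∀ y ∈ Ω, x 0 = y 0 → g x = g y)
    (p : Plane) (hp : p ∈ Ω) : LocallyRealizableAt g p := by
  have hg' := hg
  obtain ⟨hΩ, hsm, hpos⟩ := hg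
  let ι : ℝ → Plane := fun u => WithLp.toLp 2 ![u, p 1]
  have hι : ContDiff ℝ ∞ ι := by
    rw [contDiff_euclidean]
    intro i
    fin_cases i
    · exact contDiff_id
    · exact contDiff_const
  let I : Set ℝ := ι ⁻¹' Ω
  have hI : IsOpen I := hΩ.preimage hι.continuous
  have hιp : ι (p 0) = p := by
    ext i; fin_cases i <;> rfl
  have hpI : p 0 ∈ I := by change ι (p 0) ∈ Ω; rw [hιp]; exact hp
  have hco : ∀ i j, ContDiffOn ℝ ∞ (fun u => g (ι u) i j) I := fun i j =>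
    (hsm i j).comp hι.contDiffOn (fun u hu => hu)
  have hG : ∀ u ∈ I, 0 < g (ι u) 1 1 := fun u hu => by
    have := (hpos _ hu).diag_pos (i := (1 : Fin 2))
    exact this
  have hsymm : ∀ x ∈ Ω, g x 1 0 = g x 0 1 := fun x hx => by
    have := (hpos x hx).isHermitian.apply 0 1
    simpa using this
  have hdet : ∀ u ∈ I, 0 < g (ι u) 0 0 - g (ι u) 0 1 ^ 2 / g (ι u) 1 1 := fun u hu => by
    have h := (hpos _ hu).det_pos
    rw [Matrix.det_fin_two, hsymm _ hu] at h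
    have h1 := hG u hu
    rw [sub_pos, div_lt_iff₀ h1]
    nlinarith
  have hq : ContDiffOn ℝ ∞ (fun u => g (ι u) 0 1 / g (ι u) 1 1) I :=
    (hco 0 1).div (hco 1 1) fun u hu => (hG u hu).ne'
  obtain ⟨q, hqc, hqe⟩ := exists_contDiff_eventuallyEq hI hq hpI
  obtain ⟨φ, hφ, hφd⟩ := exists_primitive hqc
  have hx0 : ContDiff ℝ ∞ (fun x : Plane => x 0) := contDiff_euclidean.1 contDiff_id 0
  have hx1 : ContDiff ℝ ∞ (fun x : Plane => x 1) := contDiff_euclidean.1 contDiff_id 1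
  have hd0 : ∀ x : Plane, HasFDerivAt (fun x : Plane => x 0)
      (EuclideanSpace.proj (𝕜 := ℝ) (ι := Fin 2) 0) x := fun x =>
    (EuclideanSpace.proj (𝕜 := ℝ) (ι := Fin 2) 0).hasFDerivAt
  have hd1 : ∀ x : Plane, HasFDerivAt (fun x : Plane => x 1)
      (EuclideanSpace.proj (𝕜 := ℝ) (ι := Fin 2) 1) x := fun x =>
    (EuclideanSpace.proj (𝕜 := ℝ) (ι := Fin 2) 1).hasFDerivAt
  refine moulding Ω g hg' p hp (fun x => x 0) (fun x => x 1 + φ (x 0)) hx0.contDiffOn
    (hx1.add (hφ.comp hx0)).contDiffOn I Set.univ hI isOpen_univ hpI (Set.mem_univ _)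
    (fun u => Real.sqrt (g (ι u) 0 0 - g (ι u) 0 1 ^ 2 / g (ι u) 1 1))
    (fun u => Real.sqrt (g (ι u) 1 1)) (fun _ => 0) (fun _ => 1) ?_ ?_
    contDiffOn_const contDiffOn_const ?_
  · exact ((hco 0 0).sub (((hco 0 1).pow 2).div (hco 1 1) fun u hu => (hG u hu).ne')).sqrt
      fun u hu => (hdet u hu).ne'
  · exact (hco 1 1).sqrt fun u hu => (hG u hu).ne'
  · have hc0 : ContinuousAt (fun x : Plane => x 0) p := hx0.continuous.continuousAt
    filter_upwards [hΩ.mem_nhds hp, hc0.eventually (hI.mem_nhds hpI), hc0.eventually hqe]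
      with x hx hxI hxq
    have hgx : g x = g (ι (x 0)) := hinv x hx _ hxI rfl
    have h1 := hG (x 0) hxI
    have h2 := hdet (x 0) hxI
    have hp0 : ∀ i, pd i (fun x : Plane => x 0) x = if i = 0 then 1 else 0 := by
      intro i
      unfold pd
      rw [(hd0 x).fderiv]
      fin_cases i <;> simp
    have hp1 : ∀ i, pd i (fun x : Plane => x 1 + φ (x 0)) x =
        (if i = 1 then 1 else 0) + q (x 0) * (if i = 0 then 1 else 0) := by
      intro i
      unfold pd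
      have : HasFDerivAt (fun x : Plane => x 1 + φ (x 0)) _ x :=
        (hd1 x).add ((hφd (x 0)).comp_hasFDerivAt x (hd0 x))
      rw [this.fderiv]
      fin_cases i <;> simp
    have hs := hsymm _ hxI
    have hs' : g (ι (x 0)) 1 0 = g (ι (x 0)) 0 1 := hs
    intro i j
    rw [hp0, hp0, hp1, hp1, hxq, hgx, Real.sq_sqrt h2.le, zero_add, one_mul,
      Real.sq_sqrt h1.le]
    fin_cases i <;> fin_cases j <;> simp <;> field_simp <;> first | ring | (rw [hs'])

end Vale.Agent.H21.P229
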